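import Vale.Agent.P088.R2.H230.W.Geo9

/-!
# P088, stage 3, zone P: the derivative of a unit vector, tensors close to the identity
-/

open Set Filter
open scoped ContDiff Topology

noncomputable section

namespace Vale.Agent.P088.R2.H281.P

open Vale.Agent.P088.LR Vale.Agent.P088.R2.H31.EP
open Vale.Agent.P088.HY hiding dd
open Vale.Agent.P088.R2.H230.W Vale.Agent.P088.R2.H644.Ch Vale.Agent.P088.R2.H960.W
open Vale.Agent.P088.R2.H961.GW
open Vale.Agent.P088.R2.H464.Cu (mid dif rq)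

section unit

variable {E : Type*} [NormedAddCommGroup E] [NormedSpace ℝ E] {n : ℕ}

/-- The derivative of `f / |f|`. -/
theorem fd_unit {f : Fin n → E → ℝ} {z : E} (hf : ∀ i, DifferentiableAt ℝ (f i) z)
    (h0 : 0 < ∑ i, f i z ^ 2) (v : E) (j : Fin n) :
    fderiv ℝ (fun w => (√(∑ i, f i w ^ 2))⁻¹ * f j w) z v =
      (√(∑ i, f i z ^ 2))⁻¹ * fderiv ℝ (f j) z v -
        (√(∑ i, f i z ^ 2))⁻¹ ^ 3 * (∑ i, f i z * fderiv ℝ (f i) z v) * f j z := by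
  have hS : 0 < √(∑ i, f i z ^ 2) := Real.sqrt_pos.2 h0
  have h1 : HasFDerivAt (fun w => ∑ i, f i w ^ 2) (∑ i, (2 * f i z) • fderiv ℝ (f i) z) z := by
    refine HasFDerivAt.fun_sum fun i _ => ?_
    have := (hf i).hasFDerivAt.pow 2
    simpa [mul_comm] using this
  have h2 : HasFDerivAt (fun w => (√(∑ i, f i w ^ 2))⁻¹)
      ((-(√(∑ i, f i z ^ 2) ^ 2)⁻¹) • ((1 / (2 * √(∑ i, f i z ^ 2))) •
        ∑ i, (2 * f i z) • fderiv ℝ (f i) z)) z :=
    (hasDerivAt_inv hS.ne').comp_hasFDerivAt z (h1.sqrt h0.ne')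
  have h3 := h2.mul (hf j).hasFDerivAt
  have e0 : (fun w => (√(∑ i, f i w ^ 2))⁻¹ * f j w) =
      (fun w => (√(∑ i, f i w ^ 2))⁻¹) * f j := rfl
  rw [e0, h3.fderiv]
  simp only [_root_.add_apply, _root_.smul_apply, smul_eq_mul, _root_.sum_apply]
  have e1 : ∑ i, 2 * f i z * fderiv ℝ (f i) z v = 2 * ∑ i, f i z * fderiv ℝ (f i) z v := by
    rw [Finset.mul_sum]
    exact Finset.sum_congr rfl fun i _ => by ring
  rw [e1]
  field_simp
  ring

/-- The length of the derivative of `f / |f|`. -/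
theorem nn_unit {f : Fin n → E → ℝ} {z : E} (hf : ∀ i, DifferentiableAt ℝ (f i) z)
    (h0 : 0 < ∑ i, f i z ^ 2) (v : E) :
    nn (fun j => fderiv ℝ (fun w => (√(∑ i, f i w ^ 2))⁻¹ * f j w) z v) ≤
      2 * ((√(∑ i, f i z ^ 2))⁻¹ * nn (fun j => fderiv ℝ (f j) z v)) := by
  obtain ⟨a, ha⟩ : ∃ a : Fin n → ℝ, a = fun i => f i z := ⟨_, rfl⟩
  obtain ⟨w, hw⟩ : ∃ w : Fin n → ℝ, w = fun j => fderiv ℝ (f j) z v := ⟨_, rfl⟩
  have eS : √(∑ i, f i z ^ 2) = nn a := by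
    unfold nn dd
    rw [ha]
    congr 1
    exact Finset.sum_congr rfl fun i _ => by ring
  have hS : 0 < nn a := by
    rw [← eS]; exact Real.sqrt_pos.2 h0
  have e1 : (fun j => fderiv ℝ (fun w => (√(∑ i, f i w ^ 2))⁻¹ * f j w) z v) =
      (nn a)⁻¹ • w - ((nn a)⁻¹ ^ 3 * dd a w) • a := by
    funext j
    rw [fd_unit hf h0 v j, eS]
    simp only [Pi.sub_apply, Pi.smul_apply, smul_eq_mul, ha, hw, dd]
  rw [e1, eS, ← hw]
  have h1 := dd_le_nn a w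
  have hi : 0 < (nn a)⁻¹ := inv_pos.2 hS
  have h2 := nn_sub_le ((nn a)⁻¹ • w) (((nn a)⁻¹ ^ 3 * dd a w) • a)
  rw [nn_smul, nn_smul, abs_of_pos hi, abs_mul, abs_of_pos (by positivity : 0 < (nn a)⁻¹ ^ 3)] at h2
  have h3 : (nn a)⁻¹ ^ 3 * |dd a w| * nn a ≤ (nn a)⁻¹ ^ 3 * (nn a * nn w) * nn a :=
    mul_le_mul_of_nonneg_right (mul_le_mul_of_nonneg_left h1 (by positivity)) hS.le
  have e2 : (nn a)⁻¹ ^ 3 * (nn a * nn w) * nn a = (nn a)⁻¹ * nn w := by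
    field_simp
  linarith

end unit

end Vale.Agent.P088.R2.H281.P
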