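import Vale.Agent.P088.R2.H281.P.PGeo
import Vale.Agent.P088.R2.H281.P.Uf
import Vale.Agent.P088.R2.H475.A.Deep
import Vale.Agent.P088.R2.H768.A.RowWd
import Vale.Agent.P088.R2.H222.P.PSz

/-!
# P088, stage 3, zone P: row P-BAS
-/

open Set Filter
open scoped ContDiff Topology

noncomputable section

namespace Vale.Agent.P088.R2.H281.P

open Vale.Agent.P088.LR Vale.Agent.P088.R2.H31.EP
open Vale.Agent.P088.HY hiding dd
open Vale.Agent.P088.R2.H961.GW Vale.Agent.P088.R2.H644.Ch Vale.Agent.P088.R2.H960.W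
open Vale.Agent.P088.R2.H230.W Vale.Agent.P088.R2.H660.P
open Vale.Agent.P088.R2.H747.A (lS lS₁ lS₂ D₂ ff GG NG ee hh OmB gH RowGeo RowDeep)

open Vale.Agent.P088.R2.H464.Cu (mid dif rq contDiff_mid)

variable {n : ℕ} {q : Cst} {d : Pk n} {z : VV n}

/-! ## The tensors -/

/-- The entries of a tensor and their first derivatives. -/
theorem ten_le {s : MF n} {ε R : ℝ} (hR : 1 ≤ R) (hε : 0 ≤ ε)
    (h : ∀ i j, ∀ m ≤ 12, ∀ x,
      ‖iteratedFDeriv ℝ m (fun x => s x i j - (1 : Matrix (Fin n) (Fin n) ℝ) i j) x‖ ≤ ε * R⁻¹ ^ m)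
    (x : V n) (l i j : Fin n) : |s x i j - dl i j| ≤ ε ∧ |pd l (fun x => s x i j) x| ≤ ε := by
  constructor
  · have := h i j 0 (by norm_num) x
    rwa [norm_iteratedFDeriv_zero, pow_zero, mul_one, Real.norm_eq_abs] at this
  · have h1 := h i j 1 (by norm_num) x
    rw [norm_iteratedFDeriv_one, pow_one, fderiv_sub_const] at h1
    have h2 : ‖(Pi.single l 1 : V n)‖ ≤ 1 := by
      rw [pi_norm_le_iff_of_nonneg (by norm_num)]
      intro k
      rcases eq_or_ne k l with rfl | h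
      · simp
      · simp [Pi.single_eq_of_ne h]
    have h3 := (fderiv ℝ (fun x => s x i j) x).le_opNorm (Pi.single l 1)
    have h4 : R⁻¹ ≤ 1 := inv_le_one_of_one_le₀ hR
    have h5 : ‖fderiv ℝ (fun x => s x i j) x‖ ≤ ε := by nlinarith
    unfold pd
    rw [← Real.norm_eq_abs]
    have h6 := norm_nonneg (fderiv ℝ (fun x => s x i j) x)
    nlinarith [norm_nonneg (Pi.single l 1 : V n)]

/-- **The tensors of the pass.** -/
theorem sb_pk (h : PkOk q d) (hR : 1 ≤ q.R) (hε : 0 ≤ q.ε) (z : VV n) :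
    Sb d.sx q.ε z ∧ Sb d.sy q.ε z := by
  have t₁ := fun x l i j => ten_le (s := d.s₁) hR hε h.rg.cl₁ x l i j
  have t₂ := fun x l i j => ten_le (s := d.s₂) hR hε h.rg.cl₂ x l i j
  have p0 : ∀ (l : Fin n) (x : V n), pd l (fun _ : V n => (1 : ℝ)) x = 0 := fun l x => by
    unfold pd
    rw [fderiv_const_apply]; rfl
  constructor
  · refine ⟨fun i j => (h.rg.sy₁ z.1).apply j i, fun i j => (t₁ z.1 i i j).1, fun l i j => ?_,
      fun l => ?_, fun l => ?_⟩
    · have h1 : d.sx.D l (d.sx.s i j) z = 1 * pd l (fun x => d.s₁ x i j) z.1 :=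
        Dx_fst ((h.rg.sm₁ i j).differentiable (by simp)).differentiableAt l
      rw [h1, one_mul]
      exact (t₁ z.1 l i j).2
    · show -((n : ℝ) - 1) * pd l (fun _ => (1 : ℝ)) z.1 = 0
      rw [p0, mul_zero]
    · show fderiv ℝ (fun _ : VV n => (1 : ℝ)) z _ = 0
      rw [fderiv_const_apply]; rfl
  · refine ⟨fun i j => (h.rg.sy₂ z.2).apply j i, fun i j => (t₂ z.2 i i j).1, fun l i j => ?_,
      fun l => ?_, fun l => ?_⟩
    · have h1 : d.sy.D l (d.sy.s i j) z = 1 * pd l (fun x => d.s₂ x i j) z.2 :=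
        Dy_snd ((h.rg.sm₂ i j).differentiable (by simp)).differentiableAt l
      rw [h1, one_mul]
      exact (t₂ z.2 l i j).2
    · show -((n : ℝ) - 1) * pd l (fun _ => (1 : ℝ)) z.2 = 0
      rw [p0, mul_zero]
    · show fderiv ℝ (fun _ : VV n => (1 : ℝ)) z _ = 0
      rw [fderiv_const_apply]; rfl

theorem sb_le {E ι : Type*} [NormedAddCommGroup E] [NormedSpace ℝ E] [Fintype ι]
    [DecidableEq ι] {σ : Sl E ι} {ε ε' : ℝ} {z : E} (h : Sb σ ε z) (he : ε ≤ ε') : Sb σ ε' z :=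
  ⟨h.sy, fun i j => (h.ss i j).trans he, fun l i j => (h.s1 l i j).trans he, h.k1, h.e1⟩

/-! ## The direction -/

theorem l_cd (N : Nk n 1 q) (k : PkOk q d) : ContDiff ℝ ∞ d.l :=
  contDiffOn_univ.1 (l_sm N k)

theorem pdl_cd (N : Nk n 1 q) (k : PkOk q d) (j : Fin n) : ContDiff ℝ ∞ (pd j d.l) :=
  contDiffOn_univ.1 (sm_pd isOpen_univ (l_sm N k) j)

theorem gl_pos (N : Nk n 1 q) (k : PkOk q d) (P : Pt q d z) :
    24 / 25 ≤ √(∑ i, pd i d.l (mid z) ^ 2) := by
  have h := G_pos N k P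
  have e1 : nn (grl d.l (mid z)) = √(∑ i, pd i d.l (mid z) ^ 2) := by
    unfold nn dd grl
    congr 1
    exact Finset.sum_congr rfl fun i _ => by ring
  rwa [e1] at h

theorem nn_ee (N : Nk n 1 q) (k : PkOk q d) (P : Pt q d z) (b : Bool) (i : Fin n) :
    nn (fun j => (sP d b).D i (ee d j) z) ≤ 1 := by
  have hR := N.Rp
  have h0 := N.σ0
  have hg := gl_pos N k P
  have hg0 : 0 < ∑ i, pd i d.l (mid z) ^ 2 := by
    by_contra hcon
    rw [Real.sqrt_eq_zero_of_nonpos (not_lt.1 hcon)] at hg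
    norm_num at hg
  obtain ⟨v, hv, hm⟩ : ∃ v : VV n, (∀ f : VV n → ℝ, (sP d b).D i f z = fderiv ℝ f z v) ∧
      mid v = (1 / 2 : ℝ) • (Pi.single i 1 : V n) := by
    cases b
    · refine ⟨(0, Pi.single i 1), fun f => ?_, ?_⟩
      · show (1 : ℝ) * fderiv ℝ f z (0, Pi.single i 1) = _
        rw [one_mul]
      · unfold mid
        simp
    · refine ⟨(Pi.single i 1, 0), fun f => ?_, ?_⟩
      · show (1 : ℝ) * fderiv ℝ f z (Pi.single i 1, 0) = _
        rw [one_mul]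
      · unfold mid
        simp
  have hf : ∀ j, DifferentiableAt ℝ (fun w : VV n => pd j d.l (mid w)) z := fun j =>
    ((pdl_cd N k j).comp contDiff_mid).differentiable (by simp) z
  have h1 := nn_unit (f := fun j w => pd j d.l (mid w)) hf hg0 v
  have e1 : (fun j => (sP d b).D i (ee d j) z) =
      fun j => fderiv ℝ (fun w => (√(∑ i, pd i d.l (mid w) ^ 2))⁻¹ * pd j d.l (mid w)) z v :=
    funext fun j => hv _
  rw [e1]
  refine h1.trans ?_
  have h2 : ∀ j, |fderiv ℝ (fun w : VV n => pd j d.l (mid w)) z v| ≤ 254 * (q.σ / q.R) := by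
    intro j
    rw [fd_lm isOpen_univ (pdl_cd N k j).contDiffOn (mem_univ _) v, hm, map_smul, smul_eq_mul]
    have h3 : |pd i (pd j d.l) (mid z)| ≤ 508 * (q.σ / q.R) := by
      rw [k.lev.lit]
      exact pd2_le N.σ0 N.σ1 hR j i (mid z)
    rw [abs_mul, abs_of_pos (by norm_num : (0:ℝ) < 1 / 2)]
    unfold pd at h3 ⊢
    linarith
  have h3 := nn_le_card' (ι := Fin n) (mul_nonneg (by norm_num) (div_pos h0 hR).le) h2
  rw [Fintype.card_fin] at h3
  have hS : (√(∑ i, pd i d.l (mid z) ^ 2))⁻¹ ≤ 25 / 24 := by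
    rw [inv_le_comm₀ (by linarith) (by norm_num)]
    norm_num
    exact hg
  have h4 : (n : ℝ) * (254 * (q.σ / q.R)) ≤ 1 / 4 := by
    have h5 := N.σ2
    have h6 : q.σ / q.R ≤ q.σ := div_le_self h0.le (by linarith [N.R0])
    have h7 : (n : ℝ) ≤ (n : ℝ) ^ 2 := by
      rcases Nat.eq_zero_or_pos n with h | h
      · subst h; simp
      · have : (1 : ℝ) ≤ n := by exact_mod_cast h
        nlinarith
    have h8 : (n : ℝ) * q.σ ≤ (n : ℝ) ^ 2 * q.σ := mul_le_mul_of_nonneg_right h7 h0.le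
    have h9 : (n : ℝ) * (q.σ / q.R) ≤ n * q.σ := mul_le_mul_of_nonneg_left h6 (Nat.cast_nonneg n)
    nlinarith
  have h5 : 0 ≤ nn fun j => fderiv ℝ (fun w : VV n => pd j d.l (mid w)) z v := nn_nonneg _
  have h6 := mul_le_mul hS (h3.trans h4) h5 (by norm_num)
  linarith

/-! ## Smoothness -/

theorem op_P (h : PkOk q d) (hq : PC n q) (hs : LitSm q d) (ho : IsOpen (OmB q d)) (b : Bool) :
    IsOpen (OmP q d b) := by
  rw [isOpen_iff_mem_nhds]
  intro z hz
  have h0 : 0 < d.r2 z := lt_of_le_of_lt (sq_nonneg _) hz.1.1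
  have hr : Continuous d.r2 := continuous_const.mul hs.rq.continuous
  have hN : ContinuousAt (fun w => (8 * q.rT * H747.A.NG q d w) ^ 2) z :=
    ((A.NG_cont h hq.rad hs h0).const_mul _).pow 2
  have hW : Continuous (Wc2 q d b) := by
    cases b
    · exact A.Wy2_cont h hs
    · exact A.Wx2_cont h hs
  filter_upwards [ho.mem_nhds hz.1,
    hr.continuousAt.eventually (lt_mem_nhds hz.2.1),
    hr.continuousAt.eventually (gt_mem_nhds hz.2.2.1),
    hW.continuousAt.eventually_lt hN hz.2.2.2] with w h1 h2 h3 h4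
  exact ⟨h1, h2, h3, h4⟩

/-- Row P-SZ (helper222). -/
theorem sz (n : ℕ) : RowPSz n := fun N₁ e₂ h1 h2 h3 =>
  (H222.P.rowPSz' n N₁ e₂ h1 h2 h3).mono fun q ⟨a1, a2, a3⟩ => ⟨a1, a2, fun d h b z hz => by
    obtain ⟨b1, b2, b3, b4, b5, b6, b7, b8, b9, b10, b11, b12⟩ := a3 d h b z hz
    exact ⟨b1, b2, b3, b4, b5, b6, b7, b8, b9, b10, b11, by linarith⟩⟩

/-- **Row P-BAS.** -/
theorem rowPBas (n : ℕ) : RowPBas n := by
  intro ε₁ ε₀ n₁ n₀ p₁ p₀
  have hG := pGeo (rowGeo n) (H475.A.rowDeep n) (sz n) ε₀ n₀ p₀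
  refine ((((evPC n).and (EvC.litSm n)).and (hG.and (H768.A.rowWd n))).and
    ((nk_ev n (fun _ => 1) (fun _ => rfl) fun _ => one_pos).and (EvC.ε_le ε₁ n₁))).mono ?_
  rintro q ⟨⟨⟨hq, hs⟩, hG, hW⟩, N, hε⟩ d h b
  have hs := hs d h
  obtain ⟨ho, w, -⟩ := hW d h
  have hR : 1 ≤ q.R := hq.inf.R1
  have hε := hε (p₁ q)
  have hsub : OmP q d b ⊆ OmB q d := fun z hz => hz.1
  have r0 : ∀ z ∈ OmP q d b, 0 < d.r2 z := fun z hz =>
    lt_of_le_of_lt (sq_nonneg _) hz.1.1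
  have sG : Sm (OmP q d b) (GG q d) := w.cD.s10.mono hsub
  have sh : ∀ i, Sm (OmP q d b) (hh i) := fun i z hz => by
    have h1 := (gdp N h (Pt.of N hz.1)).q0
    have e1 : nn (dif z) = √(HY.sq (z.1 - z.2)) := nn_en _
    rw [e1] at h1
    have h2 : HY.sq (z.1 - z.2) ≠ 0 := by
      intro hcon
      rw [hcon, Real.sqrt_zero] at h1
      exact lt_irrefl _ h1
    have c1 : ContDiff ℝ ∞ fun w : VV n => w.1 i - w.2 i :=
      ((contDiff_apply ℝ ℝ i).comp contDiff_fst).sub ((contDiff_apply ℝ ℝ i).comp contDiff_snd)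
    have c2 : ContDiff ℝ ∞ fun w : VV n => HY.sq (w.1 - w.2) := by
      unfold HY.sq
      refine ContDiff.sum fun j _ => ContDiff.pow ?_ 2
      exact ((contDiff_apply ℝ ℝ j).comp contDiff_fst).sub
        ((contDiff_apply ℝ ℝ j).comp contDiff_snd)
    exact (((c2.contDiffAt.sqrt h2).inv h1.ne').mul c1.contDiffAt).contDiffWithinAt
  refine ⟨op_P h hq hs ho b, sG, ?_, fun i => ?_, fun i => ?_, fun z hz => ?_⟩
  · exact (sG.mul (w.cr.s1.mono hsub)).div (w.cr.su.mono hsub) fun z hz =>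
      (A.rr_pos (r0 z hz)).ne'
  · intro z hz
    have h1 := gl_pos N h (Pt.of N hz.1)
    have h2 : (∑ i, pd i d.l (mid z) ^ 2) ≠ 0 := by
      intro hcon
      rw [hcon, Real.sqrt_zero] at h1
      norm_num at h1
    have h3 : ∀ j, ContDiff ℝ ∞ fun w : VV n => pd j d.l (mid w) := fun j =>
      (pdl_cd N h j).comp contDiff_mid
    have h4 : ContDiff ℝ ∞ fun w : VV n => ∑ i, pd i d.l (mid w) ^ 2 :=
      ContDiff.sum fun i _ => (h3 i).pow 2
    exact (((h4.contDiffAt.sqrt h2).inv (by linarith)).mul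
      (h3 i).contDiffAt).contDiffWithinAt
  · cases b
    · exact (sh i).neg
    · exact sh i
  · have hg := hG d h b z hz
    have hsb := sb_pk h hR hq.ε0.le z
    refine ⟨?_, ?_, hg.ee, hg.hh, nn_ee N h (Pt.of N hz.1) b, hg⟩
    · cases b
      · exact sb_le hsb.2 hε
      · exact sb_le hsb.1 hε
    · cases b
      · exact sb_le hsb.1 hε
      · exact sb_le hsb.2 hε

end Vale.Agent.P088.R2.H281.P
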