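import Vale.Agent.P088.R2.H281.P.PSup

/-!
# P088, stage 3, zone P: the geometry on the open set of the pass
-/

open Set Filter
open scoped ContDiff Topology

noncomputable section

namespace Vale.Agent.P088.R2.H281.P

open Vale.Agent.P088.LR Vale.Agent.P088.R2.H31.EP
open Vale.Agent.P088.HY hiding dd
open Vale.Agent.P088.R2.H961.GW Vale.Agent.P088.R2.H644.Ch Vale.Agent.P088.R2.H960.W
open Vale.Agent.P088.R2.H230.W Vale.Agent.P088.R2.H660.P
open Vale.Agent.P088.R2.H747.A (rr lS lS₁ lS₂ D₂ ff GG NG ee hh OmB gH RowGeo RowDeep)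

variable {n : ℕ}

section swap

variable {E ι : Type*} [NormedAddCommGroup E] [NormedSpace ℝ E] [Fintype ι] {σ τ : Sl E ι}
  {U : Set E} {W u r : E → ℝ} {z : E} {e h : ι → ℝ} {ε g : ℝ}

/-- The Hessian form in the exchanged slots. -/
theorem TH_swap (c : Cm σ τ U) (hW : Sm U W) (hz : z ∈ U) (A B : ι → ℝ) :
    TH σ τ W z A B = TH τ σ W z B A := by
  have e1 : ∀ i k, Mc σ τ W i k z = Mc τ σ W k i z := fun i k => by
    unfold Mc
    rw [Finset.sum_comm]
    refine Finset.sum_congr rfl fun l _ => Finset.sum_congr rfl fun j _ => ?_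
    rw [c.cc W hW z hz j l]; ring
  have e2 : ∑ i, ∑ k, Mc σ τ W i k z * A i * B k = ∑ k, ∑ i, Mc τ σ W k i z * B k * A i := by
    rw [Finset.sum_comm]
    refine Finset.sum_congr rfl fun k _ => Finset.sum_congr rfl fun i _ => ?_
    rw [e1]; ring
  unfold TH
  rw [e2]; ring

/-- The geometry in the exchanged slots. -/
theorem geo_swap (G : Geo σ τ u r e h ε g z) (c : Cm σ τ U) (hu : Sm U u) (hr : Sm U r)
    (hz : z ∈ U) : Geo τ σ u r e (-h) ε g z where
  ee := G.ee
  hh := by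
    have := G.hh
    rwa [show dd (-h) (-h) = dd h h from by unfold dd; simp]
  r0 := G.r0
  sσ := G.sτ
  sτ := G.sσ
  ux := G.uy
  uy := G.ux
  rx := by rw [sub_neg_eq_add]; exact G.ry
  ry := by rw [← sub_eq_add_neg]; exact G.rx
  nx := G.ny
  ny := G.nx
  Tu A B := by
    rw [← TH_swap c hu hz B A, add_comm]
    exact G.Tu B A
  Tr A B := by
    have h1 := G.Tr B A
    rw [← TH_swap c hr hz B A, add_comm (dd A A)]
    have e1 : sU σ z B - sU τ z A = -(sU τ z A - sU σ z B) := by abel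
    have e2 : ∀ v : ι → ℝ, dd (-v) (-v) = dd v v := fun v => by unfold dd; simp
    have e3 : ∀ v w : ι → ℝ, dd (-v) w ^ 2 = dd v w ^ 2 := fun v w => by
      have : dd (-v) w = -dd v w := by unfold dd; simp
      rw [this]; ring
    have e4 : ∀ v w : ι → ℝ, dd v (-w) ^ 2 = dd v w ^ 2 := fun v w => by
      have : dd v (-w) = -dd v w := by unfold dd; simp
      rw [this]; ring
    rw [e1, e2, e4] at h1
    rw [e3]
    exact h1

end swap

/-- The slots of the package commute. -/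
theorem cm_pk {q : Cst} {d : Pk n} (h : PkOk q d) {U : Set (VV n)} (ho : IsOpen U) :
    Cm d.sx d.sy U :=
  cmm (O₁ := univ) (O₂ := univ)
    { op := isOpen_univ
      rp := fun _ _ => one_pos
      rs := contDiffOn_const
      ss := fun i j => (h.rg.sm₁ i j).contDiffOn
      sy := fun x i j => (h.rg.sy₁ x).apply j i }
    { op := isOpen_univ
      rp := fun _ _ => one_pos
      rs := contDiffOn_const
      ss := fun i j => (h.rg.sm₂ i j).contDiffOn
      sy := fun x i j => (h.rg.sy₂ x).apply j i } ho fun _ _ => ⟨mem_univ _, mem_univ _⟩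

/-- **The geometry of the pass.** -/
theorem pGeo (hG : RowGeo n) (hD : RowDeep n) (hS : RowPSz n) : ∀ ε₀ : Cst → ℝ, NB_σ ε₀ →
    (∀ q, 0 < ε₀ q) → EvC fun q => ∀ d : Pk n, PkOk q d → ∀ b : Bool, ∀ z ∈ OmP q d b,
      Geo (sP d b) (tP d b) (d.u q) (rr d) (fun l => ee d l z) (fun l => hP b l z) (ε₀ q)
        (q.σ / (40 * q.R)) z := by
  obtain ⟨C, _, _, H⟩ := hG
  intro ε₀ hε e0
  refine (((H ε₀ hε e0).and (hD (fun _ => 1 / 2) (fun _ => rfl) fun _ => by norm_num)).and
    ((hS (fun _ => 1) (fun _ => 1) (fun _ => rfl) (fun _ => rfl) fun _ => one_pos).and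
      ((EvC.litSm n).and (evPC n)))).mono ?_
  rintro q ⟨⟨h1, h2⟩, ⟨_, _, h3⟩, h4, hq⟩ d h b z hz
  have hs := h4 d h
  have hR : 1 ≤ q.R := hq.inf.R1
  have hp := p₁_big hq.rad
  have hom : z ∈ OmB q d := hz.1
  have hr2 : 4 ≤ d.r2 z := by
    have := hz.2.1
    nlinarith
  have hu : -(4 * (q.κ₁ * q.R)) ≤ d.u q z := by
    by_contra hcon
    have h5 := h2 d h z hom (not_le.1 hcon).le
    have h6 := (h3 d h b z hz).1
    have h7 : 1 / 2 / q.R ≤ 1 / 2 := by
      rw [div_le_iff₀ (by linarith)]; linarith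
    linarith
  have h8 := (h1 d h z hom).1 hu
  have h9 : gH C q d z = q.σ / (40 * q.R) := by
    unfold gH
    rw [if_neg (fun hh => absurd hh.1 (not_lt.2 hr2)), sub_zero]
  rw [h9] at h8
  have hrr : Sm {z | 0 < d.r2 z} (rr d) := fun w hw =>
    ((contDiff_const.mul hs.rq).contDiffAt.sqrt (ne_of_gt hw)).contDiffWithinAt
  cases b
  · have ho : IsOpen {z | 0 < d.r2 z} :=
      isOpen_lt continuous_const (continuous_const.mul hs.rq.continuous)
    have hz0 : 0 < d.r2 z := by linarith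
    exact geo_swap h8 (cm_pk h ho) hs.u.contDiffOn hrr hz0
  · exact h8

end Vale.Agent.P088.R2.H281.P
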