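import Vale.Agent.P088.R2.H281.A.Sup
import Vale.Agent.P088.R2.H710.EP.GR
import Vale.Agent.P088.R2.H281.EP.Prs
import Vale.Agent.P088.R2.H509.EP.Side

/-!
# P088, stage 3: the gradient of the true weight near the passes

For `1 ≤ |x - y|`, `|x - y| < 3 p₁` and `u = u₀` nearby: `|W_x|` and `NG` of the true weight
against those of the flat weight.
-/

open Set Filter
open scoped ContDiff Topology

noncomputable section

namespace Vale.Agent.P088.R2.H281.P

open Vale.Agent.P088.LR Vale.Agent.P088.HY Vale.Agent.P088.R2.H475 Vale.Agent.P088.R2.H31.EP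
open Vale.Agent.P088.R2.H867.EP Vale.Agent.P088.R2.H404.INF Vale.Agent.P088.R2.H747.A
open Vale.Agent.P088.R2.H710.GP
open Vale.Agent.P088.R2.H281.A

variable {n : ℕ} {q : Cst} {d : Pk n} {z : VV n}

/-- The conditions on the constants. -/
structure PC (n : ℕ) (q : Cst) : Prop extends GD n q where
  win : WinC q
  cp : 0 < q.c₀
  dW : 4 * (n * (CW n q.e₁ * q.ε)) ≤ q.rT
  dS : 16 * (AS q.e₁ * (kD n q.e₁ * q.ε)) ≤ 1
  rc : 2 * q.p₁ < q.r₁ * Real.exp (-1)

theorem evPC (n : ℕ) : EvC (PC n) := by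
  have hn : (0 : ℝ) ≤ n := Nat.cast_nonneg n
  have c1 : EvC fun q => 0 < q.rT → 4 * (n * (CW n q.e₁ * q.ε)) ≤ q.rT :=
    EvC.at_ε (fun q t => 0 < q.rT → 4 * (n * (CW n q.e₁ * t)) ≤ q.rT) fun q => by
      by_cases h : 0 < q.rT
      · have h1 : 0 < |4 * (n * CW n q.e₁)| + 1 := by positivity
        refine ev_sml (a := q.rT / (|4 * (n * CW n q.e₁)| + 1)) (by positivity) fun t h2 h3 _ => ?_
        rw [le_div_iff₀ h1] at h3
        have h4 := mul_le_mul_of_nonneg_right (le_abs_self (4 * (n * CW n q.e₁))) h2.le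
        nlinarith
      · exact Eventually.of_forall fun _ h1 => absurd h1 h
  have c2 : EvC fun q => 16 * (AS q.e₁ * (kD n q.e₁ * q.ε)) ≤ 1 :=
    EvC.at_ε (fun q t => 16 * (AS q.e₁ * (kD n q.e₁ * t)) ≤ 1) fun q => by
      have h1 : 0 < |16 * (AS q.e₁ * kD n q.e₁)| + 1 := by positivity
      refine ev_sml (a := 1 / (|16 * (AS q.e₁ * kD n q.e₁)| + 1)) (by positivity)
        fun t h2 h3 => ?_
      rw [le_div_iff₀ h1] at h3
      have h4 := mul_le_mul_of_nonneg_right (le_abs_self (16 * (AS q.e₁ * kD n q.e₁))) h2.le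
      nlinarith
  have c3 : EvC fun q => 0 < q.c' → 2 * (3 * q.p₁) ^ 2 < (q.r₁ * Real.exp (-1)) ^ 2 ∧
      2 * q.p₁ < q.r₁ * Real.exp (-1) :=
    EvC.at_M₀ (fun q t => 0 < q.c' → 2 * (3 * q.p₁) ^ 2 < (q.c' * t / 2 * Real.exp (-1)) ^ 2 ∧
      2 * q.p₁ < q.c' * t / 2 * Real.exp (-1)) fun q => by
      by_cases h : 0 < q.c'
      · have h1 : 0 < q.c' / 2 * Real.exp (-1) := by positivity
        have h2 : Tendsto (fun t : ℝ => q.c' / 2 * Real.exp (-1) * t) atTop atTop :=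
          tendsto_id.const_mul_atTop h1
        filter_upwards [h2.eventually_gt_atTop (2 * (3 * q.p₁) ^ 2), h2.eventually_gt_atTop 1,
          h2.eventually_gt_atTop (2 * q.p₁)] with t a1 a2 a3 _
        have e : q.c' * t / 2 * Real.exp (-1) = q.c' / 2 * Real.exp (-1) * t := by ring
        rw [e]
        exact ⟨by nlinarith, a3⟩
      · exact Eventually.of_forall fun _ h1 => absurd h1 h
  have c4 := EvC.ε_le (fun _ => 1 / (4 * (n + 1) ^ 2)) fun _ => rfl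
  refine (((evG.and evWin).and (EvC.pos.and c1)).and ((c2.and c3).and c4)).mono ?_
  rintro q ⟨⟨⟨g, w⟩, ⟨p, a1⟩⟩, ⟨a2, a3⟩, a4⟩
  have hε : 0 < q.ε := p.2.2.2.2.1
  have a4 := a4 (by positivity)
  rw [le_div_iff₀ (by positivity)] at a4
  have b1 : q.ε * (4 * (n + 1) ^ 2) = 4 * q.ε + (8 * n * q.ε + 4 * n ^ 2 * q.ε) := by ring
  have b2 : 0 ≤ n * q.ε := by positivity
  have b3 : 0 ≤ (n : ℝ) ^ 2 * q.ε := by positivity
  obtain ⟨a5, a6⟩ := a3 p.2.1.2.2.1
  exact ⟨⟨g, hε, by nlinarith, by nlinarith, by nlinarith, a5⟩, w, p.1.2.2.2.2.2.1,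
    a1 p.1.2.2.2.2.2.2.2.1, a2, a6⟩

/-! ### The gradients of the true weight -/

/-- The gradients of the true weight in the slots. -/
def wx (q : Cst) (d : Pk n) (z : VV n) : V n := fun i => d.sx.D i (d.W q) z
def wy (q : Cst) (d : Pk n) (z : VV n) : V n := fun i => d.sy.D i (d.W q) z

theorem wx_apply (q : Cst) (d : Pk n) (z : VV n) (i : Fin n) :
    wx q d z i = fderiv ℝ (d.W q) z (Pi.single i 1, 0) := by
  show (1 : ℝ) * _ = _
  rw [one_mul]
  rfl

theorem wy_apply (q : Cst) (d : Pk n) (z : VV n) (i : Fin n) :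
    wy q d z i = fderiv ℝ (d.W q) z (0, Pi.single i 1) := by
  show (1 : ℝ) * _ = _
  rw [one_mul]
  rfl

theorem Wx2_eq (q : Cst) (d : Pk n) (z : VV n) : Wx2 q d z = en (wx q d z) ^ 2 := (en_sq _).symm
theorem Wy2_eq (q : Cst) (d : Pk n) (z : VV n) : Wy2 q d z = en (wy q d z) ^ 2 := (en_sq _).symm

theorem gx_sum (q : Cst) (d : Pk n) (z : VV n) :
    ∑ i, dx i (d.W0 q) z ^ 2 = en (gx d q z) ^ 2 := (en_sq _).symm
theorem gy_sum (q : Cst) (d : Pk n) (z : VV n) :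
    ∑ i, dy i (d.W0 q) z ^ 2 = en (gy d q z) ^ 2 := (en_sq _).symm

theorem single_le (i : Fin n) : ‖(Pi.single i 1 : V n)‖ ≤ 1 := by
  refine (pi_norm_le_iff_of_nonneg zero_le_one).2 fun j => ?_
  by_cases h : j = i
  · subst h
    simp
  · simp [Pi.single_eq_of_ne h]

/-- The length of a vector with small entries. -/
theorem en_small {v : V n} {c : ℝ} (hc : 0 ≤ c) (h : ∀ i, |v i| ≤ c) : en v ≤ n * c := by
  refine le_of_sq_le_sq ?_ (by positivity)
  rw [en_sq]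
  have h1 : HY.sq v ≤ ∑ _i : Fin n, c ^ 2 := Finset.sum_le_sum fun i _ => by
    rw [← sq_abs]
    exact pow_le_pow_left₀ (abs_nonneg _) (h i) 2
  rw [Finset.sum_const, Finset.card_univ, Fintype.card_fin, nsmul_eq_mul] at h1
  have h2 : (n : ℝ) ≤ n ^ 2 := by exact_mod_cast Nat.le_self_pow (by norm_num) n
  have h3 := mul_le_mul_of_nonneg_right h2 (sq_nonneg c)
  nlinarith

/-- `e^(u₀) ≤ 2 G₀` for `|x - y| ≥ 1`. -/
theorem exp_le (hq : GC q) (h1 : 1 ≤ H710.GP.rr z) : Real.exp (d.u0 z) ≤ 2 * d.G0 q z := by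
  have h2 : (1 : ℝ) ≤ qq z := by
    rw [← rr_sq]
    nlinarith
  have h3 := H281.EP.prS_mono hq.rad.e0 (show (1 : ℝ) ∈ Ici (0 : ℝ) by simp)
    (show qq z ∈ Ici (0 : ℝ) from by
      show (0 : ℝ) ≤ qq z
      linarith) h2
  have h4 := H281.EP.prS_ge1 hq.rad.e0 (s := 1) (by norm_num) le_rfl
  unfold Pk.G0
  have := Real.exp_pos (d.u0 z)
  nlinarith

theorem exp_le_NG (hq : GC q) (h : PkOk q d) (h1 : 1 ≤ H710.GP.rr z) :
    Real.exp (d.u0 z) ≤ 2 * d.NG q z := by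
  have h2 := exp_le (d := d) hq h1
  have h3 := h.N_pos hq.M1 (d.u0 z)
  unfold Pk.NG
  linarith

section

variable (hq : PC n q) (h : PkOk q d) (hn : NO q d z) (h0 : 1 ≤ H710.GP.rr z)
  (h1 : z ∈ (US q : Set (VV n))) (hu : ∀ᶠ w in 𝓝 z, d.u q w = d.u0 w)

include hq h hn h0 h1 hu

theorem ent_le (v : VV n) (hv : ‖v‖ ≤ 1) :
    |fderiv ℝ (d.W q) z v - fderiv ℝ (d.W0 q) z v| ≤ CW n q.e₁ * q.ε * (2 * d.NG q z) := by
  have hC := CW_nn hq.toGD
  have hε := hq.ε0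
  refine (W_W0 hq.toGD h hn h1 hu v).trans ?_
  have h2 := exp_le_NG hq.toGC h h0
  have h3 : CW n q.e₁ * q.ε * Real.exp (d.u0 z) * ‖v‖ ≤ CW n q.e₁ * q.ε * Real.exp (d.u0 z) :=
    mul_le_of_le_one_right (by positivity) hv
  exact h3.trans (mul_le_mul_of_nonneg_left h2 (by positivity))

theorem wx_close : en (wx q d z - gx d q z) ≤ q.rT / 2 * d.NG q z := by
  have hN := H710.GP.NG_pos hq.toGC h z
  have hC := CW_nn hq.toGD
  have hε := hq.ε0
  refine (en_small (c := CW n q.e₁ * q.ε * (2 * d.NG q z)) (by positivity) fun i => ?_).trans ?_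
  · have := ent_le hq h hn h0 h1 hu (Pi.single i 1, 0) (by
      simpa [Prod.norm_def] using single_le i)
    rw [Pi.sub_apply, wx_apply]
    exact this
  · have h2 := mul_le_mul_of_nonneg_right hq.dW hN.le
    nlinarith

theorem wy_close : en (wy q d z - gy d q z) ≤ q.rT / 2 * d.NG q z := by
  have hN := H710.GP.NG_pos hq.toGC h z
  have hC := CW_nn hq.toGD
  have hε := hq.ε0
  refine (en_small (c := CW n q.e₁ * q.ε * (2 * d.NG q z)) (by positivity) fun i => ?_).trans ?_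
  · have := ent_le hq h hn h0 h1 hu (0, Pi.single i 1) (by
      simpa [Prod.norm_def] using single_le i)
    rw [Pi.sub_apply, wy_apply]
    exact this
  · have h2 := mul_le_mul_of_nonneg_right hq.dW hN.le
    nlinarith

omit hn hu in
theorem NT_close : |NT d q z - d.NG q z| ≤ 1 / 8 * d.NG q z := by
  obtain ⟨m1, m2⟩ := in_K hq.toGD h h1
  have a1 := dist_0 hq.toGD h h1
  have b1 : |prS q.e₁ (r2 (gi d.s₁) z) - prS q.e₁ (qq z)| ≤ AS q.e₁ * (kD n q.e₁ * q.ε) :=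
    (lip (H606.EP.prS_d1 hq.rad.e0) (fun s hs => AS_1 hq.rad.e0 hs) m1 m2).trans
      (mul_le_mul_of_nonneg_left a1 (AS_nn _))
  have h2 := exp_le_NG hq.toGC h h0
  have e : NT d q z - d.NG q z =
      Real.exp (d.u0 z) * (prS q.e₁ (r2 (gi d.s₁) z) - prS q.e₁ (qq z)) := by
    unfold NT Pk.NG Pk.G0
    ring
  rw [e, abs_mul, abs_of_pos (Real.exp_pos _)]
  have h3 := hq.dS
  have hE := Real.exp_pos (d.u0 z)
  have h4 := mul_le_mul_of_nonneg_left b1 hE.le
  nlinarith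

end

/-- `NG` of the true weight. -/
theorem NG_eq (hq : PC n q) (h : PkOk q d) (hu : d.u q z = d.u0 z) (h0 : 0 < d.r2 z)
    (h1 : d.r2 z ≤ (2 * q.p₁) ^ 2) : H747.A.NG q d z = NT d q z := by
  have hp := Cst.p₁_ge hq.rad
  have hr : H747.A.rr d z < q.r₁ * Real.exp (-1) := by
    refine lt_of_le_of_lt ?_ hq.rc
    unfold H747.A.rr
    rw [Real.sqrt_le_left (by linarith)]
    exact h1
  have hr0 : 0 < H747.A.rr d z := rr_pos h0
  have e1 := h.sl.inn 1 0 (ff q d z, H747.A.rr d z) hr0 hr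
  have e2 : H747.A.rr d z ^ 2 = d.r2 z := Real.sq_sqrt h0.le
  unfold H747.A.NG GG D₂ NT
  rw [e1, if_pos rfl]
  show deriv d.Φ (d.u q z) + Real.exp (d.u q z + lS q (H747.A.rr d z)) = _
  rw [hu]
  unfold lS
  have h3 : 0 < prS q.e₁ (d.r2 z) := hq.rad.pp.S_pos h0
  rw [e2, Real.exp_add, Real.exp_log h3]
  rfl

end Vale.Agent.P088.R2.H281.P
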