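import Vale.Agent.P088.R2.H281.P.Sp
import Vale.Agent.P088.R2.H660.P.Rows

/-!
# P088, stage 3, zone P: row P-SUP
-/

open Set Filter
open scoped ContDiff Topology

noncomputable section

namespace Vale.Agent.P088.R2.H281.P

open Vale.Agent.P088.LR Vale.Agent.P088.HY Vale.Agent.P088.R2.H31.EP
open Vale.Agent.P088.R2.H710.GP (en en_sq)
open Vale.Agent.P088.R2.H660.P (Wc2 OmP RowPSup)

variable {n : ℕ} {q : Cst} {d : Pk n} {z : VV n}

theorem Wc2_eq (b : Bool) : Wc2 q d b z = en (ws b q d z) ^ 2 := by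
  cases b <;> exact (en_sq _).symm

/-- The set of the pass. -/
theorem PsOk.mem {b : Bool} (h : PsOk b q d z) (hT : 0 < q.rT) (hp : 1 ≤ q.p₁)
    (hN : 0 < H747.A.NG q d z) : z ∈ OmP q d b := by
  have h1 := h.r1
  have h2 := h.r2
  have h3 := h.w
  have h4 : 0 < q.rT * H747.A.NG q d z := mul_pos hT hN
  have h5 : 0 ≤ en (ws b q d z) := H710.GP.en_nn _
  refine ⟨h.om, by nlinarith, by nlinarith, ?_⟩
  rw [Wc2_eq]
  nlinarith

/-- **Row P-SUP.** -/
theorem rowPSup (n : ℕ) : RowPSup n := by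
  refine (((supp_P n).and (EvC.litSm n)).and (evPC n)).mono ?_
  rintro q ⟨⟨h1, h2⟩, hq⟩ d h
  have hs := h2 d h
  have hp := Cst.p₁_ge hq.rad
  refine ⟨contDiffOn_univ.2 (hs.ch _), contDiffOn_univ.2 (hs.ch _), fun z hz => ?_, fun z hz => ?_⟩
  · have h3 := h1 d h true z hz
    exact h3.mem hq.rT0 hp (A.NG_pos h hq.M1 (lt_of_lt_of_le (by positivity) h3.r1))
  · have h3 := h1 d h false z hz
    exact h3.mem hq.rT0 hp (A.NG_pos h hq.M1 (lt_of_lt_of_le (by positivity) h3.r1))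

end Vale.Agent.P088.R2.H281.P
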