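import Vale.Agent.P088.R2.H281.P.Cl

/-!
# P088, stage 3, zone P: the supports of the leaves `P1`, `P2`
-/

open Set Filter
open scoped ContDiff Topology

noncomputable section

namespace Vale.Agent.P088.R2.H281.P

open Vale.Agent.P088.LR Vale.Agent.P088.HY Vale.Agent.P088.R2.H475 Vale.Agent.P088.R2.H31.EP
open Vale.Agent.P088.R2.H867.EP Vale.Agent.P088.R2.H404.INF Vale.Agent.P088.R2.H747.A
open Vale.Agent.P088.R2.H710.GP
open Vale.Agent.P088.R2.H281.A

variable {n : ℕ} {q : Cst} {d : Pk n} {z : VV n}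

/-- `p₁ ≥ 41`. -/
theorem p₁_big (hr : H509.Rad.Ok q.e₁ rp) : 41 ≤ q.p₁ := by
  have h0 := hr.e0
  have h1 := hr.e1
  have hp := Cst.p₁_ge hr
  have h2 := hr.big hp (hr.L_le (t := 1 / 4) le_rfl hp (hr.gr_le (by norm_num)))
  have h3 : (40 : ℝ) ≤ 2 / (5 * q.e₁) := by
    rw [le_div_iff₀ (by positivity)]
    linarith
  have h4 := Real.add_one_le_exp (2 / (5 * q.e₁))
  linarith

/-- The leaf of a side. -/
def leaf (b : Bool) : Zo := if b then .P1 else .P2

theorem leaf_off (b : Bool) : Off (leaf b) := by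
  unfold Off leaf
  cases b <;> simp

/-- The gradient of the flat and of the true weight in the slot of a side. -/
def gs (b : Bool) (d : Pk n) (q : Cst) (z : VV n) : V n := if b then gx d q z else gy d q z
def ws (b : Bool) (q : Cst) (d : Pk n) (z : VV n) : V n := if b then wx q d z else wy q d z

/-- What is known on the support of `P1`, `P2`. -/
structure PsOk (b : Bool) (q : Cst) (d : Pk n) (z : VV n) : Prop where
  fin : FinOk q d z
  om : z ∈ OmB q d
  r1 : q.p₁ ^ 2 ≤ d.r2 z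
  r2 : d.r2 z ≤ (2 * q.p₁) ^ 2
  rr : 3 ≤ H710.GP.rr z
  US : z ∈ (US q : Set (VV n))
  u : ∀ᶠ w in 𝓝 z, d.u q w = d.u0 w
  g : en (gs b d q z) ≤ 4 * q.rT * d.NG q z
  cl : en (ws b q d z - gs b d q z) ≤ q.rT / 2 * d.NG q z
  NG : H747.A.NG q d z = NT d q z
  NT : |NT d q z - d.NG q z| ≤ 1 / 8 * d.NG q z
  w : en (ws b q d z) ≤ 6 * (q.rT * H747.A.NG q d z)

theorem gs_cont (hs : LitSm q d) (b : Bool) : Continuous fun z => en (gs b d q z) := by
  have h1 : ContDiff ℝ ∞ (d.W0 q) := hs.W0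
  have h2 : Continuous fun z => fderiv ℝ (d.W0 q) z := h1.continuous_fderiv (by simp)
  unfold en
  refine Real.continuous_sqrt.comp ?_
  have h3 : Continuous fun z => gs b d q z := by
    cases b
    · exact continuous_pi fun i => h2.clm_apply continuous_const
    · exact continuous_pi fun i => h2.clm_apply continuous_const
  unfold HY.sq
  exact continuous_finsetSum _ fun i _ => ((continuous_apply i).comp h3).pow 2

/-- The closed conditions. -/
theorem alive_ps (hq : PC n q) (h : PkOk q d) (hs : LitSm q d) (b : Bool)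
    (hz : d.ch q (leaf b) z ≠ 0) : q.p₁ ^ 2 ≤ d.r2 z ∧ d.r2 z ≤ (2 * q.p₁) ^ 2 ∧
      en (gs b d q z) ≤ 4 * q.rT * d.NG q z := by
  have hG := H710.GP.NG_pos hq.toGC h z
  have hT := hq.rT0
  have h4 : 0 ≤ 4 * q.rT * d.NG q z := by positivity
  cases b
  · have hz' : d.ch q .P2 z ≠ 0 := hz
    refine ⟨sd_P hz' (by simp) hs.cp, sd_nf hz' (leaf_off false) (by simp) hs.cp, ?_⟩
    have h1 := sd_P2 hT hG hz'
    rw [gy_sum] at h1
    exact (abs_le_of_sq_le_sq' h1.le h4).2
  · have hz' : d.ch q .P1 z ≠ 0 := hz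
    refine ⟨sd_P hz' (by simp) hs.cp, sd_nf hz' (leaf_off true) (by simp) hs.cp, ?_⟩
    have h1 := sd_P1 hT hG hz'
    rw [gx_sum] at h1
    exact (abs_le_of_sq_le_sq' h1.le h4).2

theorem supp_ps (hq : PC n q) (h : PkOk q d) (hs : LitSm q d) (b : Bool)
    (hz : z ∈ tsupport (d.ch q (leaf b))) : q.p₁ ^ 2 ≤ d.r2 z ∧ d.r2 z ≤ (2 * q.p₁) ^ 2 ∧
      en (gs b d q z) ≤ 4 * q.rT * d.NG q z := by
  have hr : Continuous d.r2 := continuous_const.mul hs.rq.continuous
  have hc : IsClosed ({z | q.p₁ ^ 2 ≤ d.r2 z} ∩ ({z | d.r2 z ≤ (2 * q.p₁) ^ 2} ∩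
      {z | en (gs b d q z) ≤ 4 * q.rT * d.NG q z})) :=
    (isClosed_le continuous_const hr).inter ((isClosed_le hr continuous_const).inter
      (isClosed_le (gs_cont hs b) (continuous_const.mul hs.NG.continuous)))
  exact closure_minimal (s := Function.support (d.ch q (leaf b)))
    (fun w hw => alive_ps hq h hs b (Function.mem_support.1 hw)) hc hz

theorem ps_of (hq : PC n q) (h : PkOk q d) (hs : LitSm q d) (b : Bool)
    (hf : FinOk q d z) (hc : q.c₀ ^ 2 ≤ d.r2 z) (hz : z ∈ tsupport (d.ch q (leaf b))) :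
    PsOk b q d z := by
  obtain ⟨a1, a2, a3⟩ := supp_ps hq h hs b hz
  have hp := p₁_big hq.rad
  have hd := abs_le.1 (dist_le hq.toGD h z)
  have e : r2 (gi d.s₁) z = d.r2 z := rfl
  rw [e] at hd
  have hr : 3 ≤ H710.GP.rr z := by
    refine le_of_sq_le_sq ?_ (rr_nn z)
    rw [rr_sq]
    nlinarith
  have hU : z ∈ (US q : Set (VV n)) := by
    show qq z < (3 * q.p₁) ^ 2
    nlinarith
  have hu := u_eq hq.toGD h hr
  have hT := hq.rT0
  have hG := H710.GP.NG_pos hq.toGC h z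
  have h0 : 0 < d.r2 z := lt_of_lt_of_le (by positivity) a1
  have hN := NG_eq hq h hu.self_of_nhds h0 a2
  have hNT := NT_close hq h (by linarith) hU
  have hcl : en (ws b q d z - gs b d q z) ≤ q.rT / 2 * d.NG q z := by
    cases b
    · exact wy_close hq h hf.near (by linarith) hU hu
    · exact wx_close hq h hf.near (by linarith) hU hu
  refine ⟨hf, fin_OmB hq.win h hq.cp hf hc, a1, a2, hr, hU, hu, a3, hcl, hN, hNT, ?_⟩
  · have h1 := en_tri (ws b q d z - gs b d q z) (gs b d q z)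
    rw [sub_add_cancel] at h1
    rw [hN]
    have h2 := (abs_le.1 hNT).1
    nlinarith

/-- **The supports of `P1`, `P2`.** -/
theorem supp_P (n : ℕ) : EvC fun q => ∀ d : Pk n, PkOk q d → ∀ b : Bool,
    ∀ z ∈ tsupport (d.ch q (leaf b)), PsOk b q d z := by
  refine ((evPC n).and ((off_supp n).and (EvC.litSm n))).mono fun q hq d h b z hz => ?_
  obtain ⟨h1, h2⟩ := hq.2.1 d h _ (leaf_off b) z hz
  exact ps_of hq.1 h (hq.2.2 d h) b h1 h2 hz

end Vale.Agent.P088.R2.H281.P
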